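import Vale.Agent.P216T.Univ

/-!
# P216TO: the intermediate covering of a subgroup
-/

set_option linter.all false

open Set Filter Topology

namespace Vale.Agent.P216TO

open Vale.Agent.P216T

/-- The charts of a covering. -/
@[reducible] noncomputable def upChart (E : Type) [TopologicalSpace E] {X N : Type}
    [TopologicalSpace X] [TopologicalSpace N] [ChartedSpace E N] {p : X → N}
    (hp : IsLocalHomeomorph p) : ChartedSpace E X :=
  letI : ChartedSpace N X :=
    { atlas := range fun x => (hp x).choose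
      chartAt := fun x => (hp x).choose
      mem_chart_source := fun x => (hp x).choose_spec.1
      chart_mem_atlas := fun x => ⟨x, rfl⟩ }
  ChartedSpace.comp E N X

variable {G : Type} [Group G] {X N : Type} [TopologicalSpace X] [TopologicalSpace N]
  [MulAction G X] {P : X → N}

/-- **The intermediate covering.** -/
theorem exists_mid [T2Space N] (h : Quo G P) (H : Subgroup G) :
    ∃ (N' : Type) (_ : TopologicalSpace N') (_ : T2Space N') (P' : X → N') (π : N' → N),
      Quo H P' ∧ IsLocalHomeomorph π ∧ ∀ x, π (P' x) = P x := by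
  haveI : ContinuousConstSMul H X := ⟨fun g => h.cont g⟩
  let P' : X → MulAction.orbitRel.Quotient H X := Quotient.mk _
  have hq : ∀ x y, P' x = P' y ↔ ∃ g : H, g • y = x := fun x y => Quotient.eq
  have hop : IsOpenMap P' := isOpenMap_quotient_mk'_mul
  have hc : Continuous P' := continuous_quotient_mk'
  have hs : Function.Surjective P' := Quotient.mk_surjective
  have hqc : IsQuotientCoveringMap P' H :=
    { toIsQuotientMap := hop.isQuotientMap hc hs
      continuous_const_smul := fun g => h.cont g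
      apply_eq_iff_mem_orbit := fun {x y} => hq x y
      disjoint := fun x => by
        obtain ⟨U, hU, hx, -, hg⟩ := h.exists_nbhd x
        exact ⟨U, hU.mem_nhds hx, fun g ⟨_, ⟨y, hy, rfl⟩, k⟩ => Subtype.ext (hg g y hy k)⟩ }
  have hl := hqc.isCoveringMap.isLocalHomeomorph
  let π : MulAction.orbitRel.Quotient H X → N := Quotient.lift P (by
    rintro _ y ⟨g, rfl⟩
    exact h.inv g y)
  have hπ : IsLocalHomeomorph π := by
    have h1 : IsLocalHomeomorphOn (π ∘ P') univ := h.loc.isLocalHomeomorphOn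
    have h2 := h1.of_comp_right hl.isLocalHomeomorphOn
    rw [image_univ, hs.range_eq] at h2
    exact isLocalHomeomorph_iff_isLocalHomeomorphOn_univ.2 h2
  refine ⟨_, inferInstance, ⟨fun a b hne => ?_⟩, P', π, ⟨hl, hs, fun g => h.cont g,
    fun g x => (hq _ _).2 ⟨g, rfl⟩, fun x y e => (hq y x).1 e.symm,
    fun g x e => Subtype.ext (h.free g x e)⟩, hπ, fun x => rfl⟩
  by_cases h1 : π a = π b
  · obtain ⟨x, rfl⟩ := hs a
    obtain ⟨y, rfl⟩ := hs b
    obtain ⟨g, rfl⟩ := h.orb x y h1
    obtain ⟨U, hU, hx, -, hg⟩ := h.exists_nbhd x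
    refine ⟨P' '' U, P' '' ((fun x => g • x) '' U), hop _ hU, hop _ (h.isOpen_smul g hU),
      ⟨x, hx, rfl⟩, ⟨_, ⟨x, hx, rfl⟩, rfl⟩, ?_⟩
    rw [Set.disjoint_left]
    rintro _ ⟨u, hu, rfl⟩ ⟨_, ⟨v, hv, rfl⟩, e⟩
    obtain ⟨a, ha⟩ := (hq _ _).1 e.symm
    have h2 : ((a : G) * g) • v = u := by rw [mul_smul]; exact ha
    have h3 := hg _ v hv (h2 ▸ hu)
    refine hne ((hq _ _).2 ⟨a, ?_⟩)
    show (a : G) • g • x = x
    rw [← mul_smul, h3, one_smul]
  · obtain ⟨u, v, hu, hv, hxu, hxv, huv⟩ := t2_separation h1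
    exact ⟨π ⁻¹' u, π ⁻¹' v, hu.preimage hπ.continuous, hv.preimage hπ.continuous, hxu, hxv,
      huv.preimage _⟩

/-- The covering of a subgroup of finite index is compact. -/
theorem compact_mid [CompactSpace N] [ChartedSpace E3 N] (h : Quo G P) {H : Subgroup G}
    [H.FiniteIndex] {N' : Type} [TopologicalSpace N'] {P' : X → N'} (h' : Quo H P') :
    CompactSpace N' := by
  letI := upChart E3 h.loc
  haveI := ChartedSpace.locallyCompactSpace E3 X
  obtain ⟨K, hK, hx⟩ := h.exists_compact
  refine ⟨?_⟩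
  have e : (univ : Set N') = ⋃ q : G ⧸ H, P' '' ((fun x => (q.out)⁻¹ • x) '' K) := by
    refine (eq_univ_of_forall fun b => ?_).symm
    obtain ⟨x, rfl⟩ := h'.surj b
    obtain ⟨g, hg⟩ := hx x
    obtain ⟨a, ha⟩ := QuotientGroup.mk_out_eq_mul H g
    refine mem_iUnion.2 ⟨(g : G ⧸ H), _, ⟨g • x, hg, rfl⟩, ?_⟩
    beta_reduce
    rw [ha, mul_inv_rev, mul_smul, inv_smul_smul]
    exact h'.inv a⁻¹ x
  rw [e]
  exact isCompact_iUnion fun q => (hK.image (h.cont _)).image h'.continuous

end Vale.Agent.P216TO
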