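import Vale.Agent.P216TO.Top
import Vale.Agent.P216TO.Mid
import Vale.Agent.P216TE.Defs
import Vale.Agent.P216.Ch2.D907.Cub

/-!
# P216TO: the orientation covering
-/

set_option linter.all false

open Set Filter Topology

namespace Vale.Agent.P216TO

open Vale.Agent.P216 Vale.Agent.P216T Vale.Agent.P216TE Vale.Agent.P216M Vale.Agent.P216.Sl

theorem locEuc (N : Type) [TopologicalSpace N] [T2Space N] [ChartedSpace E3 N] :
    Ch2.D246.LocEuc N 3 := by
  have h := Ch2.D907.cub E3 N
  rwa [finrank_euclideanSpace_fin] at h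

/-- The top class modulo two. -/
theorem topCl_two {G : Type} [Group G] {N : Type} [MetricSpace N] [CompactSpace N]
    [ChartedSpace E3 N] (h : InC G N) : TopCl N (ZMod 2) := by
  obtain ⟨X, _, _, P, hX, h⟩ := h
  haveI := hX.conn
  haveI : Nonempty N := ⟨P (Classical.arbitrary X)⟩
  obtain ⟨w, -, h1⟩ := exists_not_exL' (k := ZMod 2)
    (h.hasSec hX fun Φ => MonoidHom.ext fun g => Subsingleton.elim _ _) (Ch2.ok _)
    (by norm_num) (locEuc N)
  exact ⟨w, h1⟩

/-- The orientation character: on every compact covering which belongs to a subgroup of its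
kernel the top class is not zero. -/
theorem exists_char (k : Type) [Field k] {G : Type} [Group G] {X N : Type} [TopologicalSpace X]
    [TopologicalSpace N] [T2Space N] [CompactSpace N] [ChartedSpace E3 N] [MulAction G X]
    {P : X → N} (hX : SC X) (h : Quo G P) : ∃ χ : G →* kˣ, ∀ H : Subgroup G, H ≤ χ.ker →
      ∀ (N' : Type) [MetricSpace N'] [CompactSpace N'] (P' : X → N') (π : N' → N), Quo H P' →
      IsLocalHomeomorph π → (∀ x, π (P' x) = P x) → TopCl N' k := by
  haveI := metrizable N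
  letI := TopologicalSpace.metrizableSpaceMetric N
  haveI := hX.conn
  obtain ⟨e⟩ := Ch2.D246.cube_equiv (k := k) (Ch2.ok k) 3
  have cov : ∀ b : N, ∃ i : Ch2.D246.Cub N 3, b ∈ UU i := fun b => by
    obtain ⟨c, hc, hc'⟩ := locEuc N b
    exact ⟨c, hc, by rw [hc', norm_zero]; exact two_pos⟩
  obtain ⟨σ, Φ, h1, h2, h3⟩ := h.cech hX UU (fun c => c.open_int) cov (TT e)
    (fun i j b hb => TT_loc e hb.1 hb.2) (fun i b hb => TT_self e hb)
    (fun i j l b hb => TT_co e hb.1.1 hb.1.2 hb.2)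
  refine ⟨Φ, fun H hH N' _ _ P' π h' hπ hP => ?_⟩
  letI := upChart E3 hπ
  haveI : Nonempty N' := ⟨P' (Classical.arbitrary X)⟩
  choose s hs using h'.surj
  have hs' : ∀ b, P (s b) = π b := fun b => by rw [← hP, hs]
  have hO : OSec N' e := by
    refine osec_of_over e hπ.continuous (fun b => ?_) (fun i b => σ i (s b))
      (fun i b hb => ?_) fun i j b hi hj => ?_
    · obtain ⟨d, hd⟩ := cov (π b)
      have hK : Convex ℝ {y : Fin 3 → ℝ | ‖y‖ ≤ 2} := by
        have : {y : Fin 3 → ℝ | ‖y‖ ≤ 2} = Metric.closedBall 0 2 := by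
          ext y
          simp
        rw [this]
        exact convex_closedBall _ _
      obtain ⟨F, f1, f2, f3⟩ := lift_convex h.cov hK d.ψ_cont (x₀ := d.φ (π b)) hd.2.le
        (e₀ := s b) (by rw [hs', d.ψφ _ hd.1])
      obtain ⟨c, c1, c2⟩ := lift_cub hπ d (F := P' ∘ F) (h'.continuous.comp_continuousOn f1)
        fun y hy => (hP _).trans (f2 y hy)
      have c3 : c.ψ (d.φ (π b)) = b := by rw [c1, Function.comp_apply, f3, hs]
      have c4 : b ∈ c.D := c3 ▸ c.ψ_mem _ hd.2.le
      exact ⟨c, d, c2, c4, by rw [← (c2.mem c4).2]; exact hd.2⟩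
    · have hb' : P (s b) ∈ UU i := by rwa [hs']
      have a1 := (h1 i (s b) hb').and
        (h.continuous.continuousAt.eventually (i.open_int.mem_nhds hb'))
      have a2 := h'.isOpenMap.image_mem_nhds a1
      rw [hs] at a2
      filter_upwards [a2] with b' hb'
      obtain ⟨x, ⟨c1, c2⟩, rfl⟩ := hb'
      obtain ⟨g, hg⟩ := h'.orb x (s (P' x)) (hs _).symm
      have g1 : Φ g = 1 := hH g.2
      have g2 : (g : G) • x = s (P' x) := hg
      rw [← g2, h3 i g x c2, c1, g1, inv_one, mul_one]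
    · have := h2 i j (s b) (by rwa [hs']) (by rwa [hs'])
      rwa [hs'] at this
  obtain ⟨w, -, hw⟩ := hO.top e (by norm_num) (locEuc N')
  exact ⟨w, hw⟩

/-- **The orientation covering**, with all the data. -/
theorem ori_full (k : Type) [Field k] [Finite k] {G : Type} [Group G] {X N : Type}
    [TopologicalSpace X] [TopologicalSpace N] [T2Space N] [CompactSpace N] [ChartedSpace E3 N]
    [MulAction G X] {P : X → N} (hX : SC X) (h : Quo G P) :
    ∃ (χ : G →* kˣ) (N' : Type) (_ : MetricSpace N') (_ : CompactSpace N')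
      (_ : ChartedSpace E3 N') (P' : X → N') (π : N' → N), Quo χ.ker P' ∧ IsLocalHomeomorph π ∧
      (∀ x, π (P' x) = P x) ∧ Ch2.D246.LocEuc N' 3 ∧ TopCl N' k ∧ TopCl N' (ZMod 2) := by
  obtain ⟨χ, hχ⟩ := exists_char k hX h
  obtain ⟨N', _, _, P', π, h', hπ, hP⟩ := exists_mid h χ.ker
  haveI := compact_mid h h'
  letI := upChart E3 hπ
  haveI := metrizable N'
  letI := TopologicalSpace.metrizableSpaceMetric N'
  exact ⟨χ, N', inferInstance, inferInstance, inferInstance, P', π, h', hπ, hP, locEuc N',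
    hχ _ le_rfl N' P' π h' hπ hP, topCl_two ⟨X, _, _, P', hX, h'⟩⟩

/-- The form for the tori. -/
theorem ori_sub (p : ℕ) [Fact p.Prime] {G : Type} [Group G] {X N : Type}
    [TopologicalSpace X] [TopologicalSpace N] [T2Space N] [CompactSpace N] [ChartedSpace E3 N]
    [MulAction G X] {P : X → N} (h : Quo G P) (hX : SC X) :
    ∃ (H : Subgroup G) (N' : Type) (_ : MetricSpace N') (_ : CompactSpace N') (P' : X → N'),
      H.FiniteIndex ∧ Quo H P' ∧ Ch2.D246.LocEuc N' 3 ∧
        ∃ w : List N' → ZMod p, CocL (univ : Set N') 3 w ∧ ¬ ExL (univ : Set N') 3 w := by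
  obtain ⟨χ, N', _, _, _, P', π, h1, -, -, h2, h3, -⟩ := ori_full (ZMod p) hX h
  exact ⟨χ.ker, N', _, inferInstance, P', inferInstance, h1, h2, h3⟩

/-- **ORI** -/
theorem ori : OriGoal := by
  rintro p _ G _ N _ _ _ _ ⟨X, _, _, P, hX, h⟩
  obtain ⟨χ, N', _, _, _, P', π, h1, -, -, -, h2, h3⟩ := ori_full (ZMod p) hX h
  exact ⟨χ, N', _, inferInstance, inferInstance, ⟨X, _, _, P', hX, h1⟩, h2, h3⟩

end Vale.Agent.P216TO
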