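import Vale.Agent.P216M.Orient

/-!
# P216TO: the orientation cocycle is natural under local homeomorphisms
-/

set_option linter.all false

open Set Filter Topology

namespace Vale.Agent.P216TO

open Vale.Agent.P216 Vale.Agent.P216.Ch2
open Vale.Agent.P216.D246

open Vale.Agent.P216.AS Vale.Agent.P216.Ch2.AS Vale.Agent.P216.H901 Vale.Agent.P216.Ch2.H901 Vale.Agent.P216.H83 Vale.Agent.P216.Ch2.H83 Vale.Agent.P216.Sl Vale.Agent.P216.PS Vale.Agent.P216.H133C Vale.Agent.P216.Ch2.H133C Vale.Agent.P216.C313 Vale.Agent.P216.Ch2.C313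
open Vale.Agent.P216.Ch2.D246 Vale.Agent.P216.Ch2.D246.Cub

/-- the model of the top local cohomology -/
abbrev Mod (k : Type) [Field k] (n : ℕ) : Type :=
  Hr (tr (Unit × (Fin n → ℝ))) (on k) (Ch2.H133C.cbE n (univ : Set Unit))
    (Ch2.H133C.bdE n univ ∅) n ≃ₗ[k] k

/-- the open cube -/
def UU {M : Type} [TopologicalSpace M] {n : ℕ} (c : Ch2.D246.Cub M n) : Set M :=
  {x | x ∈ c.D ∧ ‖c.φ x‖ < 2}

/-- The cube `c` lies over the cube `d`. -/
def Over {M' M : Type} [TopologicalSpace M'] [TopologicalSpace M] {n : ℕ} (π : M' → M)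
    (c : Ch2.D246.Cub M' n) (d : Ch2.D246.Cub M n) : Prop := ∀ y, ‖y‖ ≤ 2 → π (c.ψ y) = d.ψ y

section Top

variable {M' M : Type} [TopologicalSpace M'] [TopologicalSpace M] {n : ℕ} {π : M' → M}
  {c : Ch2.D246.Cub M' n} {d : Ch2.D246.Cub M n}

theorem Over.mem (h : Over π c d) {a : M'} (ha : a ∈ c.D) : π a ∈ d.D ∧ d.φ (π a) = c.φ a := by
  have h1 := h _ (c.φ_le a ha)
  rw [c.ψφ a ha] at h1
  rw [h1]
  exact ⟨d.ψ_mem _ (c.φ_le a ha), d.φψ _ (c.φ_le a ha)⟩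

theorem Over.inj (h : Over π c d) {a a' : M'} (ha : a ∈ c.D) (ha' : a' ∈ c.D) (e : π a = π a') :
    a = a' := by
  rw [← c.ψφ a ha, ← c.ψφ a' ha', ← (h.mem ha).2, ← (h.mem ha').2, e]

theorem Over.uu (h : Over π c d) {a : M'} (ha : a ∈ UU c) : π a ∈ UU d :=
  ⟨(h.mem ha.1).1, by rw [(h.mem ha.1).2]; exact ha.2⟩

theorem Over.up (h : Over π c d) {a : M} (ha : a ∈ d.D) :
    ∃ a' ∈ c.D, π a' = a ∧ c.φ a' = d.φ a :=
  ⟨c.ψ (d.φ a), c.ψ_mem _ (d.φ_le a ha), by rw [h _ (d.φ_le a ha), d.ψφ a ha],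
    c.φψ _ (d.φ_le a ha)⟩

/-- A lift of a cube is a cube. -/
theorem lift_cub [T2Space M'] (hπ : IsLocalHomeomorph π) (d : Ch2.D246.Cub M n)
    {F : (Fin n → ℝ) → M'} (hF : ContinuousOn F {y | ‖y‖ ≤ 2})
    (hd : ∀ y, ‖y‖ ≤ 2 → π (F y) = d.ψ y) :
    ∃ c : Ch2.D246.Cub M' n, c.ψ = F ∧ Over π c d := by
  have hK : IsCompact {y : Fin n → ℝ | ‖y‖ ≤ 2} := by
    have : {y : Fin n → ℝ | ‖y‖ ≤ 2} = Metric.closedBall 0 2 := by
      ext y
      simp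
    rw [this]
    exact isCompact_closedBall _ _
  have h1 : ∀ y, ‖y‖ ≤ 2 → d.φ (π (F y)) = y := fun y hy => by rw [hd y hy, d.φψ y hy]
  have h2 : MapsTo π (F '' {y | ‖y‖ ≤ 2}) d.D := by
    rintro _ ⟨y, hy, rfl⟩
    rw [hd y hy]
    exact d.ψ_mem y hy
  refine ⟨{ D := F '' {y | ‖y‖ ≤ 2}
            φ := fun a => d.φ (π a)
            ψ := F
            closed := (hK.image_of_continuousOn hF).isClosed
            φ_cont := d.φ_cont.comp hπ.continuous.continuousOn h2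
            φ_le := fun a ha => d.φ_le _ (h2 ha)
            ψ_cont := hF
            ψ_mem := fun y hy => ⟨y, hy, rfl⟩
            ψφ := ?_
            φψ := h1
            open_int := ?_ }, rfl, hd⟩
  · rintro _ ⟨y, hy, rfl⟩
    rw [h1 y hy]
  · rw [isOpen_iff_mem_nhds]
    rintro _ ⟨⟨y, hy, rfl⟩, hy'⟩
    obtain ⟨O, hO, hyO, hi⟩ := hπ.isLocallyInjective (F y)
    have h3 : π ⁻¹' UU d ∈ 𝓝 (F y) :=
      hπ.continuous.continuousAt (d.open_int.mem_nhds ⟨h2 ⟨y, hy, rfl⟩, hy'⟩)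
    have h4 : ContinuousOn (fun a => F (d.φ (π a))) (π ⁻¹' UU d) :=
      hF.comp (d.φ_cont.comp hπ.continuous.continuousOn fun a ha => ha.1)
        fun a ha => d.φ_le _ ha.1
    have h5 := (h4.continuousAt h3).eventually (p := fun a => a ∈ O)
      (by beta_reduce; rw [h1 y hy]; exact hO.mem_nhds hyO)
    filter_upwards [h3, h5, hO.mem_nhds hyO] with a a1 a2 a3
    refine ⟨⟨d.φ (π a), d.φ_le _ a1.1, hi a2 a3 ?_⟩, a1.2⟩
    rw [hd _ (d.φ_le _ a1.1), d.ψφ _ a1.1]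

end Top

section Coc

variable {M : Type} [MetricSpace M] [CompactSpace M] {n : ℕ} {k : Type} [Field k] (e : Mod k n)

open Classical in
/-- The orientation cocycle. -/
noncomputable def TT (i j : Ch2.D246.Cub M n) (b : M) : kˣ :=
  if h : ∃ t : kˣ, Trn e (ok k) i j b t then h.choose else 1

variable {i j l : Ch2.D246.Cub M n} {b : M}

theorem TT_trn (hi : b ∈ UU i) (hj : b ∈ UU j) : Trn e (ok k) i j b (TT e i j b : k) := by
  obtain ⟨t, ht⟩ := exists_trn e (ok k) hi.1 hi.2 hj.1 hj.2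
  have h : ∃ t : kˣ, Trn e (ok k) i j b t :=
    ⟨Units.mk0 t (trn_ne e (ok k) hi.1 hi.2 hj.1 hj.2 ht), ht⟩
  have e1 : TT e i j b = h.choose := dif_pos h
  rw [e1]
  exact h.choose_spec

theorem TT_eq (hi : b ∈ UU i) (hj : b ∈ UU j) {t : kˣ} (ht : Trn e (ok k) i j b (t : k)) :
    TT e i j b = t := Units.ext (trn_uniq e (ok k) (TT_trn e hi hj) ht)

theorem TT_loc (hi : b ∈ UU i) (hj : b ∈ UU j) : ∀ᶠ b' in 𝓝 b, TT e i j b' = TT e i j b := by
  obtain ⟨w, η, hη, hb', hs, hc, hw, ht⟩ := TT_trn e hi hj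
  filter_upwards [(isOpen_box (c := j) hb').mem_nhds ⟨hc, hw⟩, i.open_int.mem_nhds hi,
    j.open_int.mem_nhds hj] with b' h1 h3 h4
  exact TT_eq e h3 h4 ⟨w, η, hη, hb', hs, h1.1, h1.2, ht⟩

theorem TT_self (hi : b ∈ UU i) : TT e i i b = 1 :=
  TT_eq e hi hi (trn_self e (ok k) hi.1 hi.2)

theorem TT_co (hi : b ∈ UU i) (hj : b ∈ UU j) (hl : b ∈ UU l) :
    TT e i j b * TT e j l b = TT e i l b :=
  (TT_eq e hi hl (by
    rw [Units.val_mul]
    exact trn_trans e (ok k) (TT_trn e hi hj) (TT_trn e hj hl))).symm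

end Coc

section Nat

variable {M' M : Type} [MetricSpace M'] [CompactSpace M'] [MetricSpace M] [CompactSpace M] {n : ℕ}
  {k : Type} [Field k] (e : Mod k n) {π : M' → M}

theorem cc_over {c : Ch2.D246.Cub M' n} {d : Ch2.D246.Cub M n} (h : Over π c d)
    {v : Fin n → ℝ} {δ : ℝ} (hδ : 0 < δ) (hb : ‖v‖ + δ ≤ 2) {A' Y : Set M'} {A : Set M}
    (hA' : c.A1 v δ ⊆ A') (hA : d.A1 v δ ⊆ A)
    (hY : MapsTo (th c v δ) (Ch2.H133C.cbE n univ) Y)
    (hπ : IsMap (tr M') (tr M) Y univ π) (hm : MapsTo π (A' ∩ Y) A)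
    (z : Hr (tr M') (on k) univ A' n) (g : Hr (tr M) (on k) univ A n)
    (hz : resR (subset_univ Y) inter_subset_left n z = pullR (on k) hπ inter_subset_right hm n g) :
    cc e c hδ hb (resR subset_rfl hA' n z) = cc e d hδ hb (resR subset_rfl hA n g) := by
  have m1 := (isMap_th (c := c) hδ.le hb).mono subset_rfl hY
  have m2 : MapsTo (th c v δ) (Ch2.H133C.bdE n univ ∅) (A' ∩ Y) := fun p hp =>
    ⟨hA' (mapsTo_th hδ.le hb hp), hY (bdE_sub hp)⟩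
  have e1 : cc e c hδ hb (resR subset_rfl hA' n z) =
      e (pullR (on k) m1 bdE_sub m2 n (resR (subset_univ Y) inter_subset_left n z)) := by
    obtain ⟨f, hf, rfl⟩ := H.exists_mk z
    rfl
  have e2 : cc e d hδ hb (resR subset_rfl hA n g) =
      e (pullR (on k) (isMap_th (c := d) hδ.le hb) bdE_sub
        (fun p hp => hA (mapsTo_th hδ.le hb hp)) n g) := by
    obtain ⟨f, hf, rfl⟩ := H.exists_mk g
    rfl
  rw [e1, e2, hz, ← pullR_comp hπ m1 bdE_sub inter_subset_right m2 hm]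
  congr 1
  refine LinearMap.congr_fun (pullR_congr _ _ _ _ _ fun p hp => ?_) g
  exact h _ (nrm_le2 hδ.le hb hp.2)

/-- **Naturality.** -/
theorem TT_over (hπ : Continuous π) {c₁ c₂ : Ch2.D246.Cub M' n} {d₁ d₂ : Ch2.D246.Cub M n}
    (h₁ : Over π c₁ d₁) (h₂ : Over π c₂ d₂) {b : M'} (b₁ : b ∈ UU c₁) (b₂ : b ∈ UU c₂) :
    TT e c₁ c₂ b = TT e d₁ d₂ (π b) := by
  obtain ⟨η₀, hη₀, -, i1, i2⟩ := small_box (c := c₂) (compact_A1 (c := c₁) h02).isClosed b₂.1 b₂.2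
    (notMem_A1 b₁.1 (by rw [sub_zero]; exact b₁.2)) one_pos
  set w := c₂.φ b with hw
  have hη : 0 < η₀ / 2 := by positivity
  have hb : ‖w‖ + η₀ / 2 ≤ 2 := by linarith
  have k1 : ∀ a ∈ c₂.D, ‖c₂.φ a - w‖ ≤ η₀ / 2 → a ∈ UU c₁ := fun a ha ha' => by
    have := of_notMem_A1 fun h => notMem_A1 (c := c₂) (v := w) (δ := η₀) ha (by linarith) (i2 h)
    rwa [sub_zero] at this
  have hs : c₁.A1 0 2 ⊆ c₂.A1 w (η₀ / 2) :=
    i2.trans (A1_anti (by rw [sub_self, norm_zero]; linarith))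
  have hs' : d₁.A1 0 2 ⊆ d₂.A1 w (η₀ / 2) := by
    intro a ha ha2
    by_contra hc
    obtain ⟨a', j1, rfl, j3⟩ := h₂.up ha2
    have j4 := h₁.uu (k1 a' j1 (by rw [j3]; exact (not_le.1 hc).le))
    exact notMem_A1 j4.1 (by rw [sub_zero]; exact j4.2) ha
  have hm : MapsTo π (c₂.A1 w (η₀ / 2) ∩ c₁.D) (d₂.A1 w (η₀ / 2)) := by
    rintro a ⟨ha, ha1⟩ ha2
    obtain ⟨a', j1, j2, j3⟩ := h₂.up ha2
    by_contra hc
    have j4 := k1 a' j1 (by rw [j3]; exact (not_le.1 hc).le)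
    obtain rfl := h₁.inj j4.1 ha1 j2
    exact hc (j3 ▸ ha j1)
  have hπ' : IsMap (tr M') (tr M) c₁.D univ π :=
    Ch2.C313.isMap_of c₁.compact_D hπ.continuousOn (mapsTo_univ _ _)
  have hu : (univ : Set M') = c₂.A1 w (η₀ / 2) ∪ c₁.D := by
    refine (eq_univ_of_forall fun a => ?_).symm
    by_cases ha : a ∈ c₂.A1 w (η₀ / 2)
    · exact Or.inl ha
    · obtain ⟨j1, j2⟩ := of_notMem_A1 ha
      exact Or.inr (k1 a j1 j2.le).1
  obtain ⟨z, hz⟩ := (Ch2.AS.strong_excision (k := k) (χ := on k) (tw_tr (ok k) _)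
    (compact_A1 (c := c₂) hb) c₁.compact_D (inv_tr _) (inv_tr _) hu rfl (subset_univ _)
    inter_subset_left n).2 (pullR (on k) hπ' inter_subset_right hm n (gb e (ok k) d₂ hη hb))
  have e1 := cc_over e h₂ hη hb subset_rfl subset_rfl (fun p hp => by
    have j1 := nrm_le2 hη.le hb hp.2
    refine (k1 _ (c₂.ψ_mem _ j1) ?_).1
    rw [c₂.φψ _ j1]
    exact nrm_le hη.le hp.2) hπ' hm z _ hz
  have e2 := cc_over e h₁ two_pos h02 hs hs'
    (fun p hp => c₁.ψ_mem _ (nrm_le2 two_pos.le h02 hp.2)) hπ' hm z _ hz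
  have r1 : ∀ {N : Type} [MetricSpace N] {A : Set N} (x : Hr (tr N) (on k) univ A n),
      resR subset_rfl subset_rfl n x = x := fun x => Hinc_refl _ _ x
  rw [r1, r1, cc_gb] at e1
  have e3 := eq_gb e (ok k) hη hb z
  rw [e1, one_smul] at e3
  have t1 := TT_trn e (h₁.uu b₁) (h₂.uu b₂)
  have t2 : Trn e (ok k) d₁ d₂ (π b) _ := ⟨w, η₀ / 2, hη, hb, hs', (h₂.mem b₂.1).1, by
    rw [(h₂.mem b₂.1).2, sub_self, norm_zero]; exact hη, rfl⟩
  refine TT_eq e b₁ b₂ ⟨w, η₀ / 2, hη, hb, hs, b₂.1, by rw [sub_self, norm_zero]; exact hη, ?_⟩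
  rw [← e3, e2]
  exact trn_uniq e (ok k) t2 t1

end Nat

end Vale.Agent.P216TO
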