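import Vale.Agent.P216TO.Nat

/-!
# P216TO: the top class of a manifold whose orientation cocycle is a coboundary
-/

set_option linter.all false

open Set Filter Topology

namespace Vale.Agent.P216TO

open Vale.Agent.P216 Vale.Agent.P216.Ch2
open Vale.Agent.P216.D246

open Vale.Agent.P216.AS Vale.Agent.P216.Ch2.AS Vale.Agent.P216.H901 Vale.Agent.P216.Ch2.H901 Vale.Agent.P216.H83 Vale.Agent.P216.Ch2.H83 Vale.Agent.P216.Sl Vale.Agent.P216.PS Vale.Agent.P216.H133C Vale.Agent.P216.Ch2.H133C Vale.Agent.P216.C313 Vale.Agent.P216.Ch2.C313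
open Vale.Agent.P216.Ch2.D246 Vale.Agent.P216.Ch2.D246.Cub

variable {M : Type} [MetricSpace M] [CompactSpace M] {n : ℕ} {k : Type} [Field k] (e : Mod k n)

/-- The orientation cocycle is a coboundary. -/
def OSec (M : Type) [MetricSpace M] [CompactSpace M] {n : ℕ} {k : Type} [Field k] (e : Mod k n) :
    Prop :=
  ∃ σ : Ch2.D246.Cub M n → M → kˣ, (∀ i, ∀ b ∈ UU i, ∀ᶠ b' in 𝓝 b, σ i b' = σ i b) ∧
    ∀ i j, ∀ b ∈ UU i ∩ UU j, σ i b = TT e i j b * σ j b

/-- A section of the cocycle of the base along `π` gives a section upstairs. -/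
theorem osec_of_over {M' : Type} [MetricSpace M'] [CompactSpace M'] {π : M' → M}
    (hπ : Continuous π)
    (hl : ∀ b, ∃ (c : Ch2.D246.Cub M' n) (d : Ch2.D246.Cub M n), Over π c d ∧ b ∈ UU c)
    (τ : Ch2.D246.Cub M n → M' → kˣ) (h1 : ∀ i b, π b ∈ UU i → ∀ᶠ b' in 𝓝 b, τ i b' = τ i b)
    (h2 : ∀ i j b, π b ∈ UU i → π b ∈ UU j → τ i b = TT e i j (π b) * τ j b) : OSec M' e := by
  choose l d hld hb using hl
  have key : ∀ c b b', b ∈ UU c → b ∈ UU (l b') →
      TT e c (l b) b * τ (d b) b = TT e c (l b') b * τ (d b') b := by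
    intro c b b' a1 a2
    rw [h2 (d b') (d b) b ((hld b').uu a2) ((hld b).uu (hb b)),
      ← TT_over e hπ (hld b') (hld b) a2 (hb b), ← mul_assoc, TT_co e a1 a2 (hb b)]
  refine ⟨fun c b => TT e c (l b) b * τ (d b) b, fun c b hc => ?_, fun i j b hij => ?_⟩
  · filter_upwards [TT_loc e hc (hb b), h1 (d b) b ((hld b).uu (hb b)), c.open_int.mem_nhds hc,
      (l b).open_int.mem_nhds (hb b)] with b' a1 a2 a3 a4
    rw [key c b' b a3 a4, a1, a2]
  · beta_reduce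
    rw [← mul_assoc, TT_co e hij.1 hij.2 (hb b)]

theorem OSec.orient (h : OSec M e) :
    ∃ o : Ch2.D246.Cub M n → k, (∀ c, o c ≠ 0) ∧ ∀ (c c' : Ch2.D246.Cub M n) (w : Fin n → ℝ)
      (η : ℝ) (hη : 0 < η) (hb : ‖w‖ + η ≤ 2) (hs : c.A1 0 2 ⊆ c'.A1 w η),
      o c * cc e c two_pos h02 (resR subset_rfl hs n (gb e (ok k) c' hη hb)) = o c' := by
  obtain ⟨σ, hσ1, hσ2⟩ := h
  have hconst : ∀ (c : Ch2.D246.Cub M n) (b b' : M), b ∈ UU c → b' ∈ UU c → σ c b = σ c b' := by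
    intro c b b' hb hb'
    letI : TopologicalSpace kˣ := ⊥
    haveI : DiscreteTopology kˣ := ⟨rfl⟩
    refine (preconn_int (c := c)).constant (f := σ c) (fun x hx => ?_) hb hb'
    apply ContinuousAt.continuousWithinAt
    exact continuousAt_const.congr ((hσ1 c x hx).mono fun y hy => hy.symm)
  refine ⟨fun c => ((σ c (c.ψ 0))⁻¹ : kˣ), fun c => Units.ne_zero _, ?_⟩
  intro c c' w η hη hb hs
  have hz : ∀ c : Ch2.D246.Cub M n, c.ψ 0 ∈ UU c := fun c => by
    obtain ⟨h1, h3⟩ := ctr_box (c := c) (v := 0) two_pos h02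
    exact ⟨h1, by rw [h3, norm_zero]; exact two_pos⟩
  obtain ⟨h1, h3⟩ := ctr_box (c := c') hη hb
  have h4 : c'.ψ w ∉ c'.A1 w η := notMem_A1 h1 (by rw [h3, sub_self, norm_zero]; exact hη)
  have h5 := of_notMem_A1 fun h => h4 (hs h)
  rw [sub_zero] at h5
  have h6 : c'.ψ w ∈ UU c' := ⟨h1, by rw [h3]; linarith⟩
  have h7 : Trn e (ok k) c c' (c'.ψ w)
      (cc e c two_pos h02 (resR subset_rfl hs n (gb e (ok k) c' hη hb))) :=
    ⟨w, η, hη, hb, hs, h1, by rw [h3, sub_self, norm_zero]; exact hη, rfl⟩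
  have h8 := trn_uniq e (ok k) h7 (TT_trn e h5 h6)
  have h9 := hσ2 c c' (c'.ψ w) ⟨h5, h6⟩
  beta_reduce
  rw [h8, hconst c (c.ψ 0) (c'.ψ w) (hz c) h5, hconst c' (c'.ψ 0) (c'.ψ w) (hz c') h6, h9]
  rw [← Units.val_mul]
  congr 1
  rw [mul_inv_rev, mul_assoc, inv_mul_cancel, mul_one]

/-- The top class of a chart is not zero. -/
theorem OSec.lesA_ne (HS : OSec M e) (hn : 1 ≤ n) (loc : Ch2.D246.LocEuc M n)
    (c : Ch2.D246.Cub M n) :
    Ch2.H83.lesA k (univ : Set M) (c.A1 0 2) n (gb e (ok k) c two_pos h02) ≠ 0 := by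
  classical
  have h2 := ok k
  obtain ⟨o, ho, ho'⟩ := HS.orient e
  have loc' := loc
  choose C hC hC0 using loc
  have h01 : ‖(0 : Fin n → ℝ)‖ + 1 ≤ 2 := by rw [norm_zero]; norm_num
  have hcl : ∀ T : Finset M, IsCompact {a : M | ∀ b ∈ T, a ∈ (C b).A1 0 1} := by
    intro T
    have : {a : M | ∀ b ∈ T, a ∈ (C b).A1 0 1} = ⋂ b ∈ T, (C b).A1 0 1 := by
      ext a
      simp
    rw [this]
    exact (isClosed_biInter fun b _ => (compact_A1 h01).isClosed).isCompact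
  have hone : ∀ c : Ch2.D246.Cub M n, Cns e h2 o (c.A1 0 1) (o c • cc e c one_pos h01) := by
    intro c c' w η hη hb hs
    have i1 : ‖(0 : Fin n → ℝ) - 0‖ + 1 ≤ 2 := by rwa [sub_zero]
    rw [LinearMap.smul_apply, smul_eq_mul, ← cc_res e one_pos two_pos i1 h02 h01 (A1_anti i1),
      resR_resR]
    exact ho' c c' w η hη hb _
  have main : ∀ T : Finset M, ∃ I : Hr (tr M) (on k) (univ : Set M)
      {a : M | ∀ b ∈ T, a ∈ (C b).A1 0 1} n →ₗ[k] k, Cns e h2 o _ I := by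
    intro T
    induction T using Finset.induction_on with
    | empty =>
      refine ⟨0, fun c w η hη hb hs => ?_⟩
      obtain ⟨h1, h3⟩ := ctr_box (c := c) hη hb
      exact absurd (hs (show c.ψ w ∈ {a : M | ∀ b ∈ (∅ : Finset M), a ∈ (C b).A1 0 1} from
        fun b hb => absurd hb (Finset.notMem_empty b)))
        (notMem_A1 h1 (by rw [h3, sub_self, norm_zero]; exact hη))
    | insert b T hb ih =>
      obtain ⟨IL, hIL⟩ := ih
      obtain ⟨I, hI⟩ := cns_inter e h2 hn loc' (compact_A1 (c := C b) h01) (hcl T)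
        (noH_top' h2 hn one_le_two (hcl T)) (hone (C b)) hIL
      have e1 : {a : M | ∀ d ∈ insert b T, a ∈ (C d).A1 0 1} =
          (C b).A1 0 1 ∩ {a | ∀ d ∈ T, a ∈ (C d).A1 0 1} := by
        ext a
        simp
      rw [e1]
      exact ⟨I, hI⟩
  obtain ⟨T, hT⟩ := isCompact_univ.elim_nhds_subcover
    (fun b : M => {a | a ∈ (C b).D ∧ ‖(C b).φ a - 0‖ < 1}) fun b _ => by
      refine (isOpen_box h01).mem_nhds ⟨hC b, ?_⟩
      rw [hC0, sub_zero, norm_zero]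
      exact one_pos
  have hB : {a : M | ∀ b ∈ T, a ∈ (C b).A1 0 1} ⊆ (∅ : Set M) := by
    intro a ha
    obtain ⟨b, hb, hb'⟩ := mem_iUnion₂.1 (hT.2 (mem_univ a))
    exact absurd (ha b hb hb'.1) (not_le.2 hb'.2)
  obtain ⟨I, hI⟩ := main T
  intro h0
  have h1 := hI c 0 2 two_pos h02 (hB.trans (empty_subset _))
  have e1 : resR subset_rfl (hB.trans (empty_subset _)) n (gb e h2 c two_pos h02) =
      resR subset_rfl hB n
        (Ch2.H83.lesA k (univ : Set M) (c.A1 0 2) n (gb e h2 c two_pos h02)) := by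
    rw [Ch2.H83.lesA, resR_resR]
  rw [e1, h0, map_zero, map_zero] at h1
  exact ho c h1.symm

/-- The top cohomology is not zero. -/
theorem OSec.top [Nonempty M] (HS : OSec M e) (hn : 1 ≤ n) (loc : Ch2.D246.LocEuc M n) :
    ∃ w : List M → k, Nrm w ∧ CocL (univ : Set M) n w ∧ ¬ ExL (univ : Set M) n w := by
  obtain ⟨ω, hω⟩ : ∃ ω : Hr (tr M) (on k) (univ : Set M) ∅ n, ω ≠ 0 := by
    obtain ⟨b⟩ : Nonempty M := inferInstance
    obtain ⟨c, -, -⟩ := loc b
    exact ⟨_, HS.lesA_ne e hn loc c⟩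
  obtain ⟨w, hw, hN, h⟩ := exists_cls ((absE k (univ : Set M) n).symm ω)
  refine ⟨w, hN, hw, fun hex => hω ?_⟩
  rw [cls_eq_zero.2 hex] at h
  rw [← (absE k (univ : Set M) n).apply_symm_apply ω, ← h, map_zero]

end Vale.Agent.P216TO
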